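import Vale.Agent.P145.FB.Geo
import Vale.Agent.P159.TM.H459.Tor

/-!
P159, T1, row A6 (helper103): THE LIFT BACK. If the periodic lift of the positive open edges of the
torus satisfies the annulus event `Ann p q t` of `P145/FB`, then the torus configuration satisfies
459's event `OEv` (mass `0`) for the balls of radii `t`, `2 t`, `4 t` around `(p, q)`.
-/

open Finset

set_option linter.unusedSectionVars false

namespace Vale.Agent.P159.TM.H103

open Vale.Agent.P159.TM.H60 Vale.Agent.P159.TM.H459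
open Vale.Agent.P145.FB (NN NC rc mem_rc Ann annR)

section
variable {N : ℕ} [NeZero N]

/-- projection to the torus -/
def pr (N : ℕ) (a b : ℤ) : ZMod N × ZMod N := ((a : ZMod N), (b : ZMod N))

/-- `S` (fine lattice: two even coordinates = vertex, one odd coordinate = edge) lifts the field
`D` and the set `T` of open edges -/
structure LiftS (D : ZMod N × ZMod N → ℤ) (T : Finset ((ZMod N × ZMod N) × Bool))
    (S : Set (ℤ × ℤ)) : Prop where
  vert : ∀ a b : ℤ, (2 * a, 2 * b) ∈ S → 0 < D (pr N a b)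
  hor : ∀ a b : ℤ, (2 * a + 1, 2 * b) ∈ S → (pr N a b, true) ∈ T
  ver : ∀ a b : ℤ, (2 * a, 2 * b + 1) ∈ S → (pr N a b, false) ∈ T
  face : ∀ a b : ℤ, (2 * a + 1, 2 * b + 1) ∉ S

lemma pr_e1 (a b : ℤ) : pr N a b + dir N true = pr N (a + 1) b := by
  unfold pr dir
  ext <;> simp

lemma pr_e2 (a b : ℤ) : pr N a b + dir N false = pr N a (b + 1) := by
  unfold pr dir
  ext <;> simp

lemma vma_le (k : ℤ) : ((k : ℤ) : ZMod N).valMinAbs.natAbs ≤ k.natAbs :=
  ZMod.natAbs_min_of_le_div_two N _ _ (ZMod.coe_valMinAbs _) (ZMod.natAbs_valMinAbs_le _)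

lemma sd_pr (p q a b : ℤ) : sd (pr N p q) (pr N a b) ≤ max (a - p).natAbs (b - q).natAbs := by
  unfold sd sn pr
  simp only [Prod.fst_sub, Prod.snd_sub]
  have h1 := vma_le (N := N) (a - p)
  have h2 := vma_le (N := N) (b - q)
  push_cast at h1 h2
  omega

lemma pr_mem_ball {p q a b : ℤ} {r : ℕ} (h1 : p - r ≤ a) (h2 : a ≤ p + r) (h3 : q - r ≤ b)
    (h4 : b ≤ q + r) : pr N a b ∈ ball (pr N p q) r := by
  rw [mem_ball]
  have := sd_pr (N := N) p q a b
  omega

lemma exists_pr {p q : ℤ} {r : ℕ} {z : ZMod N × ZMod N} (h : z ∈ ball (pr N p q) r) :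
    ∃ a b : ℤ, z = pr N a b ∧ p - r ≤ a ∧ a ≤ p + r ∧ q - r ≤ b ∧ b ≤ q + r := by
  rw [mem_ball] at h
  unfold sd sn at h
  refine ⟨p + (z - pr N p q).1.valMinAbs, q + (z - pr N p q).2.valMinAbs, ?_, ?_, ?_, ?_, ?_⟩
  · unfold pr
    ext
    · simp
    · simp
  all_goals omega

variable {D : ZMod N × ZMod N → ℤ} {T : Finset ((ZMod N × ZMod N) × Bool)} {S : Set (ℤ × ℤ)}

/-- both end points of (or the point) `w` are in `K` -/
def Ok (N : ℕ) (K : Finset (ZMod N × ZMod N)) (w : ℤ × ℤ) : Prop :=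
  (∀ a b : ℤ, w = (2 * a, 2 * b) → pr N a b ∈ K) ∧
  (∀ a b : ℤ, w = (2 * a + 1, 2 * b) → pr N a b ∈ K ∧ pr N (a + 1) b ∈ K) ∧
  (∀ a b : ℤ, w = (2 * a, 2 * b + 1) → pr N a b ∈ K ∧ pr N a (b + 1) ∈ K)

/-- the parity cases of a point of the lift -/
lemma LiftS.cases (hS : LiftS D T S) {w : ℤ × ℤ} (hw : w ∈ S) :
    (∃ a b, w = (2 * a, 2 * b)) ∨ (∃ a b, w = (2 * a + 1, 2 * b)) ∨
      (∃ a b, w = (2 * a, 2 * b + 1)) := by
  obtain ⟨x, y⟩ := w
  rcases Int.even_or_odd' x with ⟨a, rfl | rfl⟩ <;> rcases Int.even_or_odd' y with ⟨b, rfl | rfl⟩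
  · exact Or.inl ⟨a, b, rfl⟩
  · exact Or.inr (Or.inr ⟨a, b, rfl⟩)
  · exact Or.inr (Or.inl ⟨a, b, rfl⟩)
  · exact absurd hw (hS.face a b)

lemma ok_vert {K : Finset (ZMod N × ZMod N)} {a b : ℤ} (h : pr N a b ∈ K) :
    Ok N K (2 * a, 2 * b) := by
  refine ⟨fun a' b' h' => ?_, fun a' b' h' => ?_, fun a' b' h' => ?_⟩
  · rw [Prod.mk.injEq] at h'
    obtain ⟨rfl, rfl⟩ : a = a' ∧ b = b' := by omega
    exact h
  · rw [Prod.mk.injEq] at h'
    omega
  · rw [Prod.mk.injEq] at h'
    omega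

lemma ok_hor {K : Finset (ZMod N × ZMod N)} {a b : ℤ} (h : pr N a b ∈ K)
    (h2 : pr N (a + 1) b ∈ K) : Ok N K (2 * a + 1, 2 * b) := by
  refine ⟨fun a' b' h' => ?_, fun a' b' h' => ?_, fun a' b' h' => ?_⟩
  · rw [Prod.mk.injEq] at h'
    omega
  · rw [Prod.mk.injEq] at h'
    obtain ⟨rfl, rfl⟩ : a = a' ∧ b = b' := by omega
    exact ⟨h, h2⟩
  · rw [Prod.mk.injEq] at h'
    omega

lemma ok_ver {K : Finset (ZMod N × ZMod N)} {a b : ℤ} (h : pr N a b ∈ K)
    (h2 : pr N a (b + 1) ∈ K) : Ok N K (2 * a, 2 * b + 1) := by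
  refine ⟨fun a' b' h' => ?_, fun a' b' h' => ?_, fun a' b' h' => ?_⟩
  · rw [Prod.mk.injEq] at h'
    omega
  · rw [Prod.mk.injEq] at h'
    omega
  · rw [Prod.mk.injEq] at h'
    obtain ⟨rfl, rfl⟩ : a = a' ∧ b = b' := by omega
    exact ⟨h, h2⟩

/-- the cluster of the lift projects into the cluster on the torus -/
lemma ok_of_nc (hS : LiftS D T S) {p q : ℤ} {r : ℕ} {o w : ℤ × ℤ} {B : Finset (ZMod N × ZMod N)}
    {u : ZMod N × ZMod N} (hB : ∀ a b : ℤ, p - 2 * r ≤ a → a ≤ p + 2 * r → q - 2 * r ≤ b →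
      b ≤ q + 2 * r → pr N a b ∈ B)
    (h0 : Ok N (clus tS tT (T ∩ inE tS tT B) u) o) (h : NC (S ∩ annR p q r) o w) :
    Ok N (clus tS tT (T ∩ inE tS tT B) u) w := by
  set K := clus tS tT (T ∩ inE tS tT B) u with hK
  have hbox : ∀ z ∈ annR p q (r : ℤ), 2 * (p - 2 * r) ≤ z.1 ∧ z.1 ≤ 2 * (p + 2 * r) ∧
      2 * (q - 2 * r) ≤ z.2 ∧ z.2 ≤ 2 * (q + 2 * r) := fun z hz => by
    have := hz.1
    rw [mem_rc] at this
    exact this
  -- an open horizontal edge
  have eh : ∀ a b : ℤ, (2 * a + 1, 2 * b) ∈ S ∩ annR p q r →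
      (pr N a b ∈ K ↔ pr N (a + 1) b ∈ K) := by
    intro a b h1
    have h2 := hS.hor a b h1.1
    have h3 := hbox _ h1.2
    simp only at h3
    have h4 : (pr N a b, true) ∈ T ∩ inE tS tT B := by
      rw [Finset.mem_inter, mem_inE]
      refine ⟨h2, ?_, ?_⟩
      · exact hB a b (by omega) (by omega) (by omega) (by omega)
      · show pr N a b + dir N true ∈ B
        rw [pr_e1]
        exact hB _ _ (by omega) (by omega) (by omega) (by omega)
    have h5 := clus_edge (a := tS) (b := tT) (u := u) h4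
    have h6 : tT (pr N a b, true) = pr N (a + 1) b := pr_e1 a b
    rw [h6] at h5
    exact h5
  have ev : ∀ a b : ℤ, (2 * a, 2 * b + 1) ∈ S ∩ annR p q r →
      (pr N a b ∈ K ↔ pr N a (b + 1) ∈ K) := by
    intro a b h1
    have h2 := hS.ver a b h1.1
    have h3 := hbox _ h1.2
    simp only at h3
    have h4 : (pr N a b, false) ∈ T ∩ inE tS tT B := by
      rw [Finset.mem_inter, mem_inE]
      refine ⟨h2, ?_, ?_⟩
      · exact hB a b (by omega) (by omega) (by omega) (by omega)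
      · show pr N a b + dir N false ∈ B
        rw [pr_e2]
        exact hB _ _ (by omega) (by omega) (by omega) (by omega)
    have h5 := clus_edge (a := tS) (b := tT) (u := u) h4
    have h6 : tT (pr N a b, false) = pr N a (b + 1) := pr_e2 a b
    rw [h6] at h5
    exact h5
  refine NC.ind (fun z => Ok N K z) h0 ?_ h
  intro x y hx hxy hy ih
  have hxS := hx.right_mem
  rcases hS.cases hxS.1 with ⟨a, b, rfl⟩ | ⟨a, b, rfl⟩ | ⟨a, b, rfl⟩
  · -- from a vertex
    have hv := ih.1 a b rfl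
    rcases hS.cases hy.1 with ⟨a', b', rfl⟩ | ⟨a', b', rfl⟩ | ⟨a', b', rfl⟩
    · exfalso
      unfold NN at hxy
      simp only at hxy
      omega
    · have h1 : b' = b ∧ (a' = a ∨ a' + 1 = a) := by
        unfold NN at hxy
        simp only at hxy
        omega
      obtain ⟨rfl, h2⟩ := h1
      rcases h2 with rfl | rfl
      · exact ok_hor hv ((eh _ _ hy).1 hv)
      · exact ok_hor ((eh _ _ hy).2 hv) hv
    · have h1 : a' = a ∧ (b' = b ∨ b' + 1 = b) := by
        unfold NN at hxy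
        simp only at hxy
        omega
      obtain ⟨rfl, h2⟩ := h1
      rcases h2 with rfl | rfl
      · exact ok_ver hv ((ev _ _ hy).1 hv)
      · exact ok_ver ((ev _ _ hy).2 hv) hv
  · -- from a horizontal edge
    obtain ⟨hv1, hv2⟩ := ih.2.1 a b rfl
    rcases hS.cases hy.1 with ⟨a', b', rfl⟩ | ⟨a', b', rfl⟩ | ⟨a', b', rfl⟩
    · have h1 : b' = b ∧ (a' = a ∨ a' = a + 1) := by
        unfold NN at hxy
        simp only at hxy
        omega
      obtain ⟨rfl, h2⟩ := h1
      rcases h2 with rfl | rfl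
      · exact ok_vert hv1
      · exact ok_vert hv2
    · exfalso
      unfold NN at hxy
      simp only at hxy
      omega
    · exfalso
      unfold NN at hxy
      simp only at hxy
      omega
  · -- from a vertical edge
    obtain ⟨hv1, hv2⟩ := ih.2.2 a b rfl
    rcases hS.cases hy.1 with ⟨a', b', rfl⟩ | ⟨a', b', rfl⟩ | ⟨a', b', rfl⟩
    · have h1 : a' = a ∧ (b' = b ∨ b' = b + 1) := by
        unfold NN at hxy
        simp only at hxy
        omega
      obtain ⟨rfl, h2⟩ := h1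
      rcases h2 with rfl | rfl
      · exact ok_vert hv1
      · exact ok_vert hv2
    · exfalso
      unfold NN at hxy
      simp only at hxy
      omega
    · exfalso
      unfold NN at hxy
      simp only at hxy
      omega

lemma nnm {a b c d : ℤ} (h : (d = b ∧ (c = a + 1 ∨ c = a - 1)) ∨
    (c = a ∧ (d = b + 1 ∨ d = b - 1))) : NN (a, b) (c, d) := h

/-- the lift of the complement of `K` -/
def Dc (N : ℕ) (K : Finset (ZMod N × ZMod N)) : Set (ℤ × ℤ) :=
  {w | (∃ a b : ℤ, w = (2 * a, 2 * b) ∧ pr N a b ∉ K) ∨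
    (∃ a b : ℤ, w = (2 * a + 1, 2 * b) ∧ pr N a b ∉ K) ∨
    ∃ a b : ℤ, w = (2 * a, 2 * b + 1) ∧ pr N a b ∉ K}

lemma dc_not_ok {K : Finset (ZMod N × ZMod N)} {w : ℤ × ℤ} (h : w ∈ Dc N K) : ¬ Ok N K w := by
  intro h'
  rcases h with ⟨a, b, h1, h2⟩ | ⟨a, b, h1, h2⟩ | ⟨a, b, h1, h2⟩
  · exact h2 (h'.1 a b h1)
  · exact h2 (h'.2.1 a b h1).1
  · exact h2 (h'.2.2 a b h1).1

/-- lifting of a chain -/
lemma lift_chain {K : Finset (ZMod N × ZMod N)} {z : ZMod N × ZMod N} {a b : ℤ}
    (h0 : pr N a b ∉ K)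
    (h : Relation.ReflTransGen (fun y z => Adj tS tT univ y z ∧ y ∉ K ∧ z ∉ K) (pr N a b) z) :
    ∃ a' b' : ℤ, z = pr N a' b' ∧ NC (Dc N K) (2 * a, 2 * b) (2 * a', 2 * b') := by
  induction h with
  | refl => exact ⟨a, b, rfl, NC.refl (Or.inl ⟨a, b, rfl, h0⟩)⟩
  | @tail y z _ h2 ih =>
    obtain ⟨a', b', rfl, h3⟩ := ih
    obtain ⟨⟨⟨e, c⟩, _, h4⟩, h5, h6⟩ := h2
    rcases h4 with ⟨h7, h8⟩ | ⟨h7, h8⟩
    · -- the edge starts at `y`
      have h9 : e = pr N a' b' := h7
      subst h9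
      cases c with
      | true =>
        have h10 : z = pr N (a' + 1) b' := by rw [← h8]; exact pr_e1 a' b'
        subst h10
        refine ⟨a' + 1, b', rfl, ?_⟩
        have k1 : (2 * a' + 1, 2 * b') ∈ Dc N K := Or.inr (Or.inl ⟨a', b', rfl, h5⟩)
        have k2 : (2 * (a' + 1), 2 * b') ∈ Dc N K := Or.inl ⟨a' + 1, b', rfl, h6⟩
        exact (h3.tail (nnm (by omega)) k1).tail
          (nnm (by omega)) k2
      | false =>
        have h10 : z = pr N a' (b' + 1) := by rw [← h8]; exact pr_e2 a' b'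
        subst h10
        refine ⟨a', b' + 1, rfl, ?_⟩
        have k1 : (2 * a', 2 * b' + 1) ∈ Dc N K := Or.inr (Or.inr ⟨a', b', rfl, h5⟩)
        have k2 : (2 * a', 2 * (b' + 1)) ∈ Dc N K := Or.inl ⟨a', b' + 1, rfl, h6⟩
        exact (h3.tail (nnm (by omega)) k1).tail
          (nnm (by omega)) k2
    · -- the edge ends at `y`
      have h9 : e = z := h7
      subst h9
      cases c with
      | true =>
        have h10 : e = pr N (a' - 1) b' := by
          have k0 : e + dir N true = pr N (a' - 1 + 1) b' := by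
            rw [sub_add_cancel]; exact h8
          rw [← pr_e1] at k0
          exact add_right_cancel k0
        subst h10
        refine ⟨a' - 1, b', rfl, ?_⟩
        have k1 : (2 * (a' - 1) + 1, 2 * b') ∈ Dc N K :=
          Or.inr (Or.inl ⟨a' - 1, b', rfl, h6⟩)
        have k2 : (2 * (a' - 1), 2 * b') ∈ Dc N K := Or.inl ⟨a' - 1, b', rfl, h6⟩
        exact (h3.tail (nnm (by omega)) k1).tail
          (nnm (by omega)) k2
      | false =>
        have h10 : e = pr N a' (b' - 1) := by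
          have k0 : e + dir N false = pr N a' (b' - 1 + 1) := by
            rw [sub_add_cancel]; exact h8
          rw [← pr_e2] at k0
          exact add_right_cancel k0
        subst h10
        refine ⟨a', b' - 1, rfl, ?_⟩
        have k1 : (2 * a', 2 * (b' - 1) + 1) ∈ Dc N K :=
          Or.inr (Or.inr ⟨a', b' - 1, rfl, h6⟩)
        have k2 : (2 * a', 2 * (b' - 1)) ∈ Dc N K := Or.inl ⟨a', b' - 1, rfl, h6⟩
        exact (h3.tail (nnm (by omega)) k1).tail
          (nnm (by omega)) k2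

/-- **THE LIFT BACK** -/
theorem oev_of_ann {om : Finset ((ZMod N × ZMod N) × Bool)} (hS : LiftS D (plusE tS tT D om) S)
    {p q : ℤ} {r : ℕ} (hr : 1 ≤ r) (hA : Ann p q r S) :
    OEv tS tT (ball (pr N p q) r) (ball (pr N p q) (2 * r)) (ball (pr N p q) (4 * r)) 0 D om := by
  obtain ⟨o, ho, hsep⟩ := hA.cluster (by exact_mod_cast hr)
  have hbox := ho.2.1
  rw [mem_rc] at hbox
  have hB : ∀ a b : ℤ, p - 2 * r ≤ a → a ≤ p + 2 * r → q - 2 * r ≤ b →
      b ≤ q + 2 * r → pr N a b ∈ ball (pr N p q) (4 * r) := fun a b h1 h2 h3 h4 =>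
    pr_mem_ball (by push_cast; omega) (by push_cast; omega) (by push_cast; omega)
      (by push_cast; omega)
  -- the base point
  obtain ⟨u, hu, hpos, hok⟩ : ∃ u ∈ ball (pr N p q) (4 * r), 0 < D u ∧
      Ok N (clus tS tT (plusE tS tT D om ∩ inE tS tT (ball (pr N p q) (4 * r))) u) o := by
    rcases hS.cases ho.1 with ⟨a, b, rfl⟩ | ⟨a, b, rfl⟩ | ⟨a, b, rfl⟩
    · simp only at hbox
      exact ⟨pr N a b, hB a b (by omega) (by omega) (by omega) (by omega), hS.vert a b ho.1,
        ok_vert (self_mem_clus _)⟩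
    · simp only at hbox
      have h1 := hS.hor a b ho.1
      have h2 := hB a b (by omega) (by omega) (by omega) (by omega)
      have h3 := hB (a + 1) b (by omega) (by omega) (by omega) (by omega)
      refine ⟨pr N a b, h2, (mem_plusE.1 h1).2.1, ok_hor (self_mem_clus _) ?_⟩
      have h4 : (pr N a b, true) ∈ plusE tS tT D om ∩
          inE tS tT (ball (pr N p q) (4 * r)) := by
        rw [Finset.mem_inter, mem_inE]
        refine ⟨h1, h2, ?_⟩
        show pr N a b + dir N true ∈ _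
        rw [pr_e1]
        exact h3
      have h5 := (clus_edge (a := tS) (b := tT) (u := pr N a b) h4).1 (self_mem_clus _)
      have h6 : tT (pr N a b, true) = pr N (a + 1) b := pr_e1 a b
      rw [h6] at h5
      exact h5
    · simp only at hbox
      have h1 := hS.ver a b ho.1
      have h2 := hB a b (by omega) (by omega) (by omega) (by omega)
      have h3 := hB a (b + 1) (by omega) (by omega) (by omega) (by omega)
      refine ⟨pr N a b, h2, (mem_plusE.1 h1).2.1, ok_ver (self_mem_clus _) ?_⟩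
      have h4 : (pr N a b, false) ∈ plusE tS tT D om ∩
          inE tS tT (ball (pr N p q) (4 * r)) := by
        rw [Finset.mem_inter, mem_inE]
        refine ⟨h1, h2, ?_⟩
        show pr N a b + dir N false ∈ _
        rw [pr_e2]
        exact h3
      have h5 := (clus_edge (a := tS) (b := tT) (u := pr N a b) h4).1 (self_mem_clus _)
      have h6 : tT (pr N a b, false) = pr N a (b + 1) := pr_e2 a b
      rw [h6] at h5
      exact h5
  refine ⟨u, hu, hpos, Nat.zero_le _, ?_⟩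
  intro x hx y hy hc
  obtain ⟨a, b, rfl, h1, h2, h3, h4⟩ := exists_pr hx
  -- the chain is not trivial
  have hx0 : pr N a b ∉ Kc tS tT (ball (pr N p q) (4 * r)) D om u := by
    rcases Relation.ReflTransGen.cases_head hc with h | ⟨_, h, _⟩
    · exfalso
      apply hy
      rw [← h]
      exact ball_mono (by omega) hx
    · exact h.2.1
  obtain ⟨a', b', rfl, h5⟩ := lift_chain hx0 hc
  have h6 : (2 * a' ≤ 2 * (p - 2 * r) ∨ 2 * (p + 2 * r) ≤ 2 * a' ∨
      2 * b' ≤ 2 * (q - 2 * r) ∨ 2 * (q + 2 * r) ≤ 2 * b') := by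
    by_contra hcon
    push Not at hcon
    apply hy
    exact pr_mem_ball (by push_cast; omega) (by push_cast; omega) (by push_cast; omega)
      (by push_cast; omega)
  obtain ⟨w, hw, hw2⟩ := hsep _ (2 * a, 2 * b) (2 * a', 2 * b') h5.conn
    (by rw [mem_rc]; simp only; omega) h6
  exact dc_not_ok hw (ok_of_nc hS hB hok hw2)

end

end Vale.Agent.P159.TM.H103
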